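import Vale.Agent.P092.H596.Trn

/-!
P092, TEAM D (helper596), block [D-I1]: equivariance of the count.
-/

set_option linter.all false

open scoped InnerProductSpace ENNReal LinearAlgebra.Projectivization Pointwise
open Filter Topology ContinuousLinearMap MeasureTheory TopologicalSpace Matrix

namespace Vale.Agent.P092.H596

open Vale.Agent.P092.SD
open Vale.Agent.P092.RC (Cm TRN Pic)

theorem inc_smul (g : G3 ℝ) (x l : PP ℝ) :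
    (g • x, tau ℝ g • l) ∈ H820.inc3 (k := ℝ) ↔ (x, l) ∈ H820.inc3 (k := ℝ) := by
  obtain ⟨v, rfl⟩ := H820.pj_surj x
  obtain ⟨w, rfl⟩ := H820.pj_surj l
  change (g.1 *ᵥ v.1) ⬝ᵥ ((g⁻¹).1.transpose *ᵥ w.1) = 0 ↔ v.1 ⬝ᵥ w.1 = 0
  have : (g.1 *ᵥ v.1) ⬝ᵥ ((g⁻¹).1.transpose *ᵥ w.1) = v.1 ⬝ᵥ w.1 := by
    rw [Matrix.dotProduct_mulVec, Matrix.vecMul_transpose, Matrix.mulVec_mulVec]
    have e2 : (g⁻¹).1 * g.1 = (1 : Matrix (Fin 3) (Fin 3) ℝ) :=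
      congrArg Subtype.val (inv_mul_cancel g)
    rw [e2, Matrix.one_mulVec]
  rw [this]

theorem tsupport_act (g : G3 ℝ) (f : CP ℝ) :
    tsupport (act g f : PP ℝ → ℂ) = {x | g⁻¹ • x ∈ tsupport (f : PP ℝ → ℂ)} := by
  have e : (act g f : PP ℝ → ℂ) = (f : PP ℝ → ℂ) ∘ (H820.hP (k := ℝ) (ι := Fin 3) g⁻¹) := rfl
  rw [e, tsupport_comp_eq_preimage]
  rfl

theorem closure_pre (g : G3 ℝ) (A : Set (PP ℝ)) :
    closure {x : PP ℝ | g • x ∈ A} = {x | g • x ∈ closure A} :=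
  ((H820.hP (k := ℝ) (ι := Fin 3) g).preimage_closure A).symm

theorem ninc_pre (g : G3 ℝ) {A : Set (PP ℝ)} {h : CP ℝ} (hA : NInc (closure A) (tsupport h)) :
    NInc (closure {x : PP ℝ | g • x ∈ A}) (tsupport (act (tau ℝ g⁻¹) h)) := by
  rw [closure_pre, tsupport_act]
  intro x hx l hl hinc
  refine hA (g • x) hx (tau ℝ g • l) ?_ ((inc_smul g x l).2 hinc)
  have e : (tau ℝ g⁻¹)⁻¹ = tau ℝ g := by rw [← map_inv, inv_inv]
  rw [← e]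
  exact hl

section gen

variable {Γ K : Type} [Group Γ] [NormedAddCommGroup K] [InnerProductSpace ℂ K] [CompleteSpace K]
  {lam : Γ →* (K →L[ℂ] K)} {W : Set (K →L[ℂ] K)} {Ω : K} {m : Set Γ → (K →L[ℂ] K)}

/-- **The count hypothesis of the counting theorem for `B = F h`.** -/
theorem i1_count {q : Γ →* G3 ℝ} (hfin : ∀ R : ℝ, {γ | nm (q γ) ≤ R}.Finite)
    (hL : ∀ γ, adjoint (lam γ) = lam γ⁻¹)
    (htr : ∀ T, Cm W T → TRN lam Ω (adjoint T) = TRN lam Ω T) (hM : Ms lam W Ω m)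
    {F : CP ℝ →⋆ₐ[ℂ] (K →L[ℂ] K)} (hcm : ∀ f, Cm W (F f))
    (hcov : ∀ γ f, lam γ * F f * lam γ⁻¹ = F (act (tau ℝ (q γ)) f))
    {A : Set (PP ℝ)} {h : CP ℝ} (hA : NInc (closure A) (tsupport h)) :
    ∃ T₀ : ℝ, 0 < T₀ ∧ ∀ T ≥ T₀, ∀ R : ℝ, ∃ C : ℝ, 0 ≤ C ∧ ∀ J : ℕ,
      TRN lam Ω (m {γ | NW R (q γ) ∧ Att T A (q γ) ∧ nm (q γ) ≤ Real.exp J} * F h) ≤
        ENNReal.ofReal (C * (J + 1)) := by
  classical
  obtain ⟨T₀, hT₀, hcount⟩ := line_count q hfin isClosed_closure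
    (isClosed_tsupport (h : PP ℝ → ℂ)) hA
  refine ⟨T₀, hT₀, fun T hT R => ?_⟩
  obtain ⟨N, hN⟩ := hcount T hT R
  refine ⟨N * ‖h‖ ^ 2 * ‖Ω‖ ^ 2, by positivity, fun J => ?_⟩
  refine (i1_trn (c := N * (J + 1) * ‖h‖ ^ 2) hL htr hM hcm hcov (by positivity)
    fun S hS y => ?_).trans (ENNReal.ofReal_le_ofReal (le_of_eq (by ring)))
  have hcard := hN J y (S.filter fun γ => tau ℝ (q γ) • y ∈ tsupport h) fun γ hγ => by
    obtain ⟨h1, h2⟩ := Finset.mem_filter.1 hγ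
    obtain ⟨a1, ⟨v, φ, hv, hvA, hφ⟩, a3⟩ := hS γ h1
    exact ⟨a1, ⟨v, φ, hv, subset_closure hvA, hφ⟩, a3, h2⟩
  have hsum : ∑ γ ∈ S, ‖h (tau ℝ (q γ) • y)‖ ^ 2 ≤
      ∑ γ ∈ S.filter (fun γ => tau ℝ (q γ) • y ∈ tsupport h), ‖h‖ ^ 2 := by
    rw [Finset.sum_filter]
    refine Finset.sum_le_sum fun γ _ => ?_
    split_ifs with hc
    · exact pow_le_pow_left₀ (norm_nonneg _) (h.norm_coe_le_norm _) 2
    · rw [image_eq_zero_of_notMem_tsupport hc, norm_zero, zero_pow two_ne_zero]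
  refine hsum.trans ?_
  rw [Finset.sum_const, nsmul_eq_mul]
  refine mul_le_mul_of_nonneg_right ?_ (by positivity)
  exact_mod_cast hcard

end gen

end Vale.Agent.P092.H596
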