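import Vale.Agent.P092.SD.Blocks
import Vale.Agent.P092.H596.I1a
import Vale.Agent.P092.H632.SD.Frame
import Vale.Agent.P092.H790.CT2

/-!
P092, TEAM D (helper596), block [D-I1]: **incident pairs are carried by incidence**.
-/

set_option linter.all false

open scoped InnerProductSpace ENNReal LinearAlgebra.Projectivization
open Filter Topology ContinuousLinearMap MeasureTheory TopologicalSpace

namespace Vale.Agent.P092.H596

open Vale.Agent.P092.SD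
open Vale.Agent.P092.RC (Cm TRN Pic)
open Vale.Agent.P092.H820 (inc3)

/-- room between the support of `u` and the incidence with the support of `f` -/
theorem exists_room {u f : CP ℝ} (hn : NInc (tsupport (u : PP ℝ → ℂ)) (tsupport (f : PP ℝ → ℂ))) :
    ∃ A : Set (PP ℝ), IsOpen A ∧ tsupport (u : PP ℝ → ℂ) ⊆ A ∧
      NInc (closure A) (tsupport (f : PP ℝ → ℂ)) := by
  obtain ⟨U, hU, huU, hUn⟩ : ∃ U : Set (PP ℝ), IsOpen U ∧ tsupport (u : PP ℝ → ℂ) ⊆ U ∧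
      NInc U (tsupport (f : PP ℝ → ℂ)) := by
    have h1 : (tsupport (u : PP ℝ → ℂ)) ×ˢ (tsupport (f : PP ℝ → ℂ)) ⊆
        (H820.inc3 (k := ℝ))ᶜ := by
      rintro ⟨x, l⟩ ⟨hx, hl⟩
      exact hn x hx l hl
    obtain ⟨U, V, hU, hV, h2, h3, h4⟩ := generalized_tube_lemma
      (isClosed_tsupport (u : PP ℝ → ℂ)).isCompact (isClosed_tsupport (f : PP ℝ → ℂ)).isCompact
      H820.inc3_closed.isOpen_compl h1
    exact ⟨U, hU, h2, fun x hx l hl => h4 (Set.mk_mem_prod hx (h3 hl))⟩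
  obtain ⟨A, hA, huA, hAU⟩ := normal_exists_closure_subset
    (isClosed_tsupport (u : PP ℝ → ℂ)) hU huU
  exact ⟨A, hA, huA, fun x hx l hl => hUn x (hAU hx) l hl⟩

/-- the count in finite form -/
theorem i1_fin {μ : Measure ℝ} {Γ K : Type} [Group Γ] [NormedAddCommGroup K]
    [InnerProductSpace ℂ K] [CompleteSpace K]
    {w : ℝˣ} {π : G3 ℝ →* (K →L[ℂ] K)} {lam : Γ →* (K →L[ℂ] K)} {W : Set (K →L[ℂ] K)} {Ω : K}
    {m : Set Γ → (K →L[ℂ] K)} {q : Γ →* G3 ℝ} {E F : PP ℝ → (CP ℝ →⋆ₐ[ℂ] (K →L[ℂ] K))}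
    (h : LegS μ w π lam W Ω m q E F) (l : PP ℝ) {f : CP ℝ} {A : Set (PP ℝ)}
    (hAn : NInc (closure A) (tsupport (f : PP ℝ → ℂ))) (R : ℝ) :
    ∃ T > 0, ∃ C : ℝ, ∀ J : ℝ, 0 ≤ J → ∀ S : Finset Γ,
      (∀ γ ∈ S, NW R (q γ) ∧ Att T A (q γ) ∧ Real.log (nm (q γ)) ≤ J) →
        ∑ γ ∈ S, ‖adjoint (F l f) (lam γ Ω)‖ ^ 2 ≤ C * (1 + J) ^ 1 := by
  classical
  obtain ⟨T₀, hT₀, hcount⟩ := i1_count (W := W) (Ω := Ω) (m := m) h.disc h.pic.adjL h.pic.tr_adj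
    h.ms (F := F l) (fun f => h.f.cm l f) (fun γ f => h.f.cov γ l f) hAn
  obtain ⟨C, hC, hCb⟩ := hcount T₀ le_rfl R
  refine ⟨T₀, hT₀, 2 * C, fun J hJ S hS => ?_⟩
  have e1 := hCb ⌈J⌉₊
  rw [H632.SD.trn_mD h.pic h.ms (h.f.cm l f)] at e1
  have hS' : ∀ γ ∈ S, γ ∈ {γ | NW R (q γ) ∧ Att T₀ A (q γ) ∧ nm (q γ) ≤ Real.exp ⌈J⌉₊} := by
    intro γ hγ
    obtain ⟨h5, h6, h7⟩ := hS γ hγ
    refine ⟨h5, h6, ?_⟩
    have h8 : 0 < nm (q γ) := by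
      rw [nm_eq]
      linarith [H414.half_le_mx (q γ)]
    calc nm (q γ) = Real.exp (Real.log (nm (q γ))) := (Real.exp_log h8).symm
      _ ≤ Real.exp ⌈J⌉₊ := Real.exp_le_exp.2 (h7.trans (Nat.le_ceil _))
  have e2 : ENNReal.ofReal (∑ γ ∈ S, ‖adjoint (F l f) (lam γ Ω)‖ ^ 2) ≤
      ENNReal.ofReal (C * (⌈J⌉₊ + 1)) := by
    refine le_trans ?_ e1
    rw [ENNReal.ofReal_sum_of_nonneg fun _ _ => by positivity]
    calc ∑ γ ∈ S, ENNReal.ofReal (‖adjoint (F l f) (lam γ Ω)‖ ^ 2) =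
        ∑ γ ∈ S, ‖adjoint (F l f) (lam γ Ω)‖ₑ ^ 2 := by
          refine Finset.sum_congr rfl fun γ _ => ?_
          rw [ENNReal.ofReal_pow (norm_nonneg _), ofReal_norm_eq_enorm]
      _ = ∑' γ : (S : Set Γ), ‖adjoint (F l f) (lam (γ : Γ) Ω)‖ₑ ^ 2 :=
          (Finset.tsum_subtype S fun γ => ‖adjoint (F l f) (lam γ Ω)‖ₑ ^ 2).symm
      _ ≤ _ := ENNReal.tsum_mono_subtype (fun γ => ‖adjoint (F l f) (lam γ Ω)‖ₑ ^ 2) hS'
  have e3 := (ENNReal.ofReal_le_ofReal_iff (by positivity)).1 e2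
  refine e3.trans ?_
  have e4 : ((⌈J⌉₊ : ℕ) : ℝ) ≤ J + 1 := (Nat.ceil_lt_add_one hJ).le
  nlinarith

/-- **[D-I1]** -/
theorem i1Stmt : I1Stmt ℝ volume := by
  intro Γ K _ _ _ _ w π lam W Ω m q E F h a l hal u f hn
  obtain ⟨g, hga, hgl⟩ := H632.SD.exists_g2 hal
  obtain ⟨A, hA, huA, hAn⟩ := exists_room hn
  have hb : Commute (F l f) (π (g * bw w * g⁻¹)) := by
    rw [← hgl]
    have := H632.SD.com_bw' h.f g w 1 2 f
    rwa [pow_one] at this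
  have hun : ∀ s : ℝ, Commute (F l f) (π (g * un s * g⁻¹)) := by
    intro s
    rw [← hgl]
    exact H632.SD.com_un' h.f g s f
  rw [← hga]
  exact H790.CT.E_mul_zero_of_poly (μ := volume) h.hw h.pic h.ms h.uc h.orb h.size h.e (h.f.cm l f) hb hun hA
    huA 1 (fun R => i1_fin h l hAn R)

end Vale.Agent.P092.H596
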