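import Vale.Agent.P092.SD.Defs
import Vale.Agent.P092.H414.Near2
import Vale.Agent.P092.H696.Geo

/-!
P092, TEAM D (helper596), block [D-I1], geometric half: for a fixed line `x` of the target plane
the number of near-wall elements `γ` of size at most `exp J`, attracting point in `A`, such that
`γ x` is in `B` (no point of `A` on a line of `B`) is `O(J)`.
-/

set_option linter.all false

open scoped LinearAlgebra.Projectivization
open Matrix

namespace Vale.Agent.P092.H596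

open Vale.Agent.P092.SD

theorem nm_eq (h : G3 ℝ) : nm h = H414.mx h.1 := by
  apply le_antisymm
  · refine (pi_norm_le_iff_of_nonneg (H414.mx_nonneg _)).2 fun i =>
      (pi_norm_le_iff_of_nonneg (H414.mx_nonneg _)).2 fun j => ?_
    exact H414.le_mx h.1 i j
  · obtain ⟨i, j, e⟩ := H414.exists_mx h.1
    rw [e]
    exact (norm_le_pi_norm (fun j => h.1 i j) j).trans (norm_le_pi_norm (fun i j => h.1 i j) i)

/-- Two closed sets which are not incident are at a definite angle. -/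
theorem exists_angle {A B : Set (PP ℝ)} (hA : IsClosed A) (hB : IsClosed B) (h : NInc A B) :
    ∃ δ : ℝ, 0 < δ ∧ ∀ (v n : Fin 3 → ℝ) (hv : v ≠ 0) (hn : n ≠ 0), pt ℝ v hv ∈ A →
      pt ℝ n hn ∈ B → δ * (‖n‖ * ‖v‖) ≤ |n ⬝ᵥ v| := by
  have hne : ∀ v : Metric.sphere (0 : Fin 3 → ℝ) 1, v.1 ≠ 0 := by
    intro v h0
    have := v.2
    rw [h0] at this
    simp at this
  let f : Metric.sphere (0 : Fin 3 → ℝ) 1 → PP ℝ := fun v => pt ℝ v.1 (hne v)
  have hf : Continuous f :=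
    H820.pj_continuous.comp (Continuous.subtype_mk continuous_subtype_val hne)
  have hK : IsCompact ((f ⁻¹' A) ×ˢ (f ⁻¹' B)) :=
    (hA.preimage hf).isCompact.prod (hB.preimage hf).isCompact
  have hsc : ∀ (v : Fin 3 → ℝ) (hv : v ≠ 0), ∃ s : Metric.sphere (0 : Fin 3 → ℝ) 1,
      f s = pt ℝ v hv ∧ v = ‖v‖ • s.1 := by
    intro v hv
    have hv0 : ‖v‖ ≠ 0 := norm_ne_zero_iff.2 hv
    refine ⟨⟨‖v‖⁻¹ • v, ?_⟩, ?_, ?_⟩
    · rw [mem_sphere_zero_iff_norm, norm_smul, norm_inv, norm_norm, inv_mul_cancel₀ hv0]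
    · exact (Projectivization.mk_eq_mk_iff _ _ _ _ _).2
        ⟨Units.mk0 ‖v‖⁻¹ (inv_ne_zero hv0), rfl⟩
    · simp only
      rw [smul_smul, mul_inv_cancel₀ hv0, one_smul]
  have hc : Continuous fun p : Metric.sphere (0 : Fin 3 → ℝ) 1 × Metric.sphere (0 : Fin 3 → ℝ) 1 =>
      |p.2.1 ⬝ᵥ p.1.1| := by
    refine continuous_abs.comp ?_
    exact (continuous_subtype_val.comp continuous_snd).dotProduct
      (continuous_subtype_val.comp continuous_fst)
  by_cases he : ((f ⁻¹' A) ×ˢ (f ⁻¹' B)).Nonempty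
  · obtain ⟨p, hp, hmin⟩ := hK.exists_isMinOn he hc.continuousOn
    refine ⟨|p.2.1 ⬝ᵥ p.1.1|, abs_pos.2 fun h0 => ?_, ?_⟩
    · refine h (f p.1) hp.1 (f p.2) hp.2 ?_
      refine (H820.orthogonal_iff (k := ℝ) ⟨p.1.1, hne p.1⟩ ⟨p.2.1, hne p.2⟩).2 ?_
      rw [dotProduct_comm]
      exact h0
    · intro v n hv hn ha hb
      obtain ⟨s, hs, es⟩ := hsc v hv
      obtain ⟨t, ht, et⟩ := hsc n hn
      have h1 : |p.2.1 ⬝ᵥ p.1.1| ≤ |t.1 ⬝ᵥ s.1| := by
        refine hmin (a := (s, t)) ?_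
        refine ⟨?_, ?_⟩
        · change f s ∈ A
          rw [hs]; exact ha
        · change f t ∈ B
          rw [ht]; exact hb
      have h2 : |n ⬝ᵥ v| = ‖n‖ * ‖v‖ * |t.1 ⬝ᵥ s.1| := by
        conv_lhs => rw [es, et]
        rw [dotProduct_smul, smul_dotProduct, smul_eq_mul, smul_eq_mul, abs_mul, abs_mul,
          abs_of_nonneg (norm_nonneg _), abs_of_nonneg (norm_nonneg _)]
        ring
      rw [h2, mul_comm]
      exact mul_le_mul_of_nonneg_left h1 (by positivity)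
  · refine ⟨1, one_pos, fun v n hv hn ha hb => ?_⟩
    exfalso
    obtain ⟨s, hs, es⟩ := hsc v hv
    obtain ⟨t, ht, et⟩ := hsc n hn
    refine he ⟨(s, t), ?_, ?_⟩
    · change f s ∈ A
      rw [hs]; exact ha
    · change f t ∈ B
      rw [ht]; exact hb

/-- from the shell letters of helper414 to those of helper696 -/
theorem nw_of_sh {C b : ℝ} (hC : 0 < C) {g : G3 ℝ} (h : H414.Sh C b g) {i j : Fin 3}
    (hp : H414.Piv g i j) : H696.NW C b g.1 i j where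
  det := g.2
  piv := hp
  lo := h.piv_low hC.le hp
  hi := h.up i j
  adj := h.adj

/-- The lines far from the attracting set are at a definite angle from the pivot column. -/
theorem att_angle {A B : Set (PP ℝ)} {δ : ℝ} (hδ : 0 < δ)
    (hang : ∀ (v n : Fin 3 → ℝ) (hv : v ≠ 0) (hn : n ≠ 0), pt ℝ v hv ∈ A →
      pt ℝ n hn ∈ B → δ * (‖n‖ * ‖v‖) ≤ |n ⬝ᵥ v|) {T : ℝ} (hT4 : 4 ≤ T) (hT : 12 / δ ≤ T)
    {g : G3 ℝ} (hatt : Att T A g) {i j : Fin 3} (hp : H414.Piv g i j)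
    {n : Fin 3 → ℝ} (hn : n ≠ 0) (hnB : pt ℝ n hn ∈ B) :
    δ / 2 * ‖n‖ ≤ |n ⬝ᵥ H696.uu g.1 i j| := by
  obtain ⟨v, φ, hv, hvA, hφ⟩ := hatt
  have hT0 : 0 < T := by linarith
  have hpos : 0 < |g.1 i j| := by
    have := H414.half_le_mx g
    rw [hp.mx_eq] at this
    linarith
  have hne : g.1 i j ≠ 0 := abs_pos.1 hpos
  rw [nm_eq, hp.mx_eq] at hφ
  set c : ℝ := φ j / g.1 i j with hc
  set e : Fin 3 → ℝ := fun a => H696.uu g.1 i j a - c * v a with he
  have he1 : ∀ a, |e a| ≤ 1 / T := by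
    intro a
    have h1 : e a = (g.1 a j - v a * φ j) / g.1 i j := by
      rw [he, hc]
      simp only [H696.uu]
      field_simp
    rw [h1, abs_div, div_le_div_iff₀ hpos hT0]
    have h2 := hφ a j
    rw [Real.norm_eq_abs] at h2
    rw [one_mul]
    calc |g.1 a j - v a * φ j| * T ≤ |g.1 i j| / T * T := mul_le_mul_of_nonneg_right h2 hT0.le
      _ = |g.1 i j| := by field_simp
  have hui : H696.uu g.1 i j i = 1 := div_self hne
  have hcv : 1 - 1 / T ≤ |c| * ‖v‖ := by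
    have h1 := he1 i
    have h2 : e i = 1 - c * v i := by rw [he]; simp only; rw [hui]
    rw [h2] at h1
    have h3 : 1 - 1 / T ≤ |c * v i| := by
      have h4 := abs_sub_abs_le_abs_sub (1 : ℝ) (c * v i)
      rw [abs_one] at h4
      linarith
    refine h3.trans ?_
    rw [abs_mul]
    exact mul_le_mul_of_nonneg_left (norm_le_pi_norm v i) (abs_nonneg _)
  have hdot : n ⬝ᵥ H696.uu g.1 i j = c * (n ⬝ᵥ v) + n ⬝ᵥ e := by
    have h1 : H696.uu g.1 i j = c • v + e := by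
      funext a
      simp only [he, Pi.add_apply, Pi.smul_apply, smul_eq_mul]
      ring
    rw [h1, dotProduct_add, dotProduct_smul, smul_eq_mul]
  have hne1 : |n ⬝ᵥ e| ≤ 3 / T * ‖n‖ := by
    have h1 : ∀ a, |n a * e a| ≤ ‖n‖ * (1 / T) := fun a => by
      rw [abs_mul]
      exact mul_le_mul (norm_le_pi_norm n a) (he1 a) (abs_nonneg _) (norm_nonneg _)
    simp only [dotProduct, Fin.sum_univ_three]
    calc |n 0 * e 0 + n 1 * e 1 + n 2 * e 2| ≤ |n 0 * e 0| + |n 1 * e 1| + |n 2 * e 2| :=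
          abs_add_three _ _ _
      _ ≤ ‖n‖ * (1 / T) + ‖n‖ * (1 / T) + ‖n‖ * (1 / T) := by gcongr <;> exact h1 _
      _ = 3 / T * ‖n‖ := by ring
  have h5 : δ * ‖n‖ * (1 - 1 / T) ≤ |c * (n ⬝ᵥ v)| := by
    rw [abs_mul]
    calc δ * ‖n‖ * (1 - 1 / T) ≤ δ * ‖n‖ * (|c| * ‖v‖) :=
          mul_le_mul_of_nonneg_left hcv (by positivity)
      _ = |c| * (δ * (‖n‖ * ‖v‖)) := by ring
      _ ≤ |c| * |n ⬝ᵥ v| := mul_le_mul_of_nonneg_left (hang v n hv hn hvA hnB) (abs_nonneg _)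
  have h6 : |c * (n ⬝ᵥ v)| - |n ⬝ᵥ e| ≤ |n ⬝ᵥ H696.uu g.1 i j| := by
    rw [hdot]
    have := abs_sub_abs_le_abs_sub (c * (n ⬝ᵥ v)) (-(n ⬝ᵥ e))
    rw [abs_neg, sub_neg_eq_add] at this
    exact this
  have h7 : 1 / T ≤ 1 / 4 := one_div_le_one_div_of_le (by norm_num) hT4
  have h8 : 3 / T ≤ δ / 4 := by
    rw [div_le_div_iff₀ hT0 (by norm_num)]
    rw [div_le_iff₀ hδ] at hT
    linarith
  have h9 : 3 / T * ‖n‖ ≤ δ / 4 * ‖n‖ := mul_le_mul_of_nonneg_right h8 (norm_nonneg _)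
  have h10 : δ * ‖n‖ * (3 / 4) ≤ δ * ‖n‖ * (1 - 1 / T) :=
    mul_le_mul_of_nonneg_left (by linarith) (by positivity)
  linarith

section count

variable {Γ : Type} [Group Γ]

theorem fin_bd (q : Γ →* G3 ℝ) (hfin : ∀ R : ℝ, {γ | nm (q γ) ≤ R}.Finite) (c : ℝ) :
    {γ | H414.Bd c (q γ).1}.Finite := by
  refine (hfin c).subset fun γ hγ => ?_
  change nm (q γ) ≤ c
  rw [nm_eq]
  exact H414.mx_le hγ

/-- bounded multiplicity in one shell, one pivot, one disc of lines -/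
theorem cell_count (q : Γ →* G3 ℝ) {C b D : ℝ} (hC : 0 < C) (hb : 0 < b)
    (hf : {γ | H414.Bd (C ^ 2 + 3 * (C ^ 2 * (2 * D)) + 3 * C ^ 3) (q γ).1}.Finite)
    {i j : Fin 3} (y0 : Fin 3 → ℝ) (S : Finset Γ)
    (hS : ∀ g ∈ S, H414.Sh C b (q g) ∧ H414.Piv (q g) i j)
    (hy : ∀ g ∈ S, ∀ l, |(q g).1 i l / (q g).1 i j - y0 l| * b ^ 3 ≤ D) :
    S.card ≤ hf.toFinset.card := by
  classical
  rcases S.eq_empty_or_nonempty with rfl | ⟨g0, hg0⟩
  · exact Nat.zero_le _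
  · refine Finset.card_le_card_of_injOn (fun g => g * g0⁻¹) ?_
      fun a _ b _ hab => mul_right_cancel hab
    intro g hg
    have hg' := Finset.mem_coe.mp hg
    simp only [Set.Finite.coe_toFinset]
    change H414.Bd _ (q (g * g0⁻¹)).1
    rw [map_mul, map_inv]
    refine H414.mul_inv_bd hC hb (hS g0 hg0).1 (hS g hg').1 (hS g0 hg0).2 (hS g hg').2 fun l => ?_
    have h1 := hy g0 hg0 l
    have h2 := hy g hg' l
    have hb3 : 0 < b ^ 3 := pow_pos hb 3
    have h3 : |(q g).1 i l / (q g).1 i j - (q g0).1 i l / (q g0).1 i j| ≤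
        |(q g).1 i l / (q g).1 i j - y0 l| + |(q g0).1 i l / (q g0).1 i j - y0 l| := by
      rw [abs_sub_comm ((q g0).1 i l / (q g0).1 i j)]
      exact abs_sub_le _ _ _
    calc _ ≤ (|(q g).1 i l / (q g).1 i j - y0 l| +
          |(q g0).1 i l / (q g0).1 i j - y0 l|) * b ^ 3 := mul_le_mul_of_nonneg_right h3 hb3.le
      _ ≤ 2 * D := by rw [add_mul]; linarith

/-- **The pointwise count.** -/
theorem line_count (q : Γ →* G3 ℝ) (hfin : ∀ R : ℝ, {γ | nm (q γ) ≤ R}.Finite)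
    {A B : Set (PP ℝ)} (hA : IsClosed A) (hB : IsClosed B) (h : NInc A B) :
    ∃ T₀ : ℝ, 0 < T₀ ∧ ∀ T ≥ T₀, ∀ R : ℝ, ∃ N : ℕ, ∀ (J : ℕ) (x : PP ℝ) (S : Finset Γ),
      (∀ γ ∈ S, NW R (q γ) ∧ Att T A (q γ) ∧ nm (q γ) ≤ Real.exp J ∧ tau ℝ (q γ) • x ∈ B) →
      S.card ≤ N * (J + 1) := by
  classical
  obtain ⟨δ, hδ, hang⟩ := exists_angle hA hB h
  refine ⟨max 4 (12 / δ), lt_of_lt_of_le (by norm_num) (le_max_left _ _), fun T hT R => ?_⟩
  have hT4 : 4 ≤ T := (le_max_left _ _).trans hT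
  have hT12 : 12 / δ ≤ T := (le_max_right _ _).trans hT
  obtain ⟨C, hCdef⟩ : ∃ C : ℝ, C = 3 + 3 * |R| := ⟨_, rfl⟩
  have hC : 0 < C := by rw [hCdef]; positivity
  obtain ⟨D, hD⟩ : ∃ D : ℝ, D = H696.cD C (δ / 2) := ⟨_, rfl⟩
  obtain ⟨M, hM⟩ : ∃ M : ℝ, M = 12 * C ^ 3 / δ := ⟨_, rfl⟩
  have hM0 : 0 < M := by rw [hM]; positivity
  have hf1 := hfin (C * M ^ 2)
  have hf2 := fin_bd q hfin (C ^ 2 + 3 * (C ^ 2 * (2 * D)) + 3 * C ^ 3)
  refine ⟨hf1.toFinset.card + 9 * hf2.toFinset.card, fun J x S hS => ?_⟩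
  obtain ⟨⟨ℓ, hℓ⟩, rfl⟩ := H820.pj_surj x
  have hsh : ∀ γ ∈ S, H414.Sh C (Real.exp (H414.sn (q γ) / 2)) (q γ) := by
    intro γ hγ
    have h1 := (hS γ hγ).1
    rw [NW, nm_eq, nm_eq] at h1
    rw [hCdef]
    refine H414.shell_of (abs_nonneg R) (h1.trans ?_)
    exact mul_le_mul_of_nonneg_right (le_abs_self R) (H414.mx_nonneg _)
  -- the good elements of a shell
  have hcell : ∀ (s : ℕ) (i j : Fin 3),
      (S.filter fun γ => H414.sn (q γ) = s ∧ H414.Piv (q γ) i j ∧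
        M ≤ Real.exp (H414.sn (q γ) / 2) ^ 3).card ≤ hf2.toFinset.card := by
    intro s i j
    refine cell_count q hC (b := Real.exp (s / 2)) (Real.exp_pos _) hf2 (i := i) (j := j)
      (fun l => ℓ l / ℓ j) _ ?_ ?_
    · intro γ hγ
      obtain ⟨h1, h2, h3, h4⟩ := Finset.mem_filter.1 hγ
      refine ⟨?_, h3⟩
      rw [← h2]
      exact hsh γ h1
    · intro γ hγ l
      obtain ⟨h1, h2, h3, h4⟩ := Finset.mem_filter.1 hγ
      obtain ⟨-, hatt, -, hx⟩ := hS γ h1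
      rw [h2] at h4
      have hsh' : H414.Sh C (Real.exp (s / 2)) (q γ) := by
        rw [← h2]
        exact hsh γ h1
      obtain ⟨n, hn⟩ : ∃ n : Fin 3 → ℝ, n = (tau ℝ (q γ)).1 *ᵥ ℓ := ⟨_, rfl⟩
      have hn0 : n ≠ 0 := by
        rw [hn]
        exact (smul_ne_zero_iff_ne (tau ℝ (q γ))).2 hℓ
      have hnB : pt ℝ n hn0 ∈ B := by
        have e : pt ℝ n hn0 = tau ℝ (q γ) • H820.pj ℝ (Fin 3) ⟨ℓ, hℓ⟩ := by
          subst hn
          rfl
        rw [e]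
        exact hx
      have hng : n ᵥ* (q γ).1 = ℓ := by
        have e : (tau ℝ (q γ)).1 = ((q γ)⁻¹).1ᵀ := rfl
        have e2 : ((q γ)⁻¹).1 * (q γ).1 = (1 : Matrix (Fin 3) (Fin 3) ℝ) :=
          congrArg Subtype.val (inv_mul_cancel (q γ))
        rw [hn, e, mulVec_transpose, vecMul_vecMul]
        exact (congrArg (fun X => ℓ ᵥ* X) e2).trans (vecMul_one ℓ)
      have hang' := att_angle hδ hang hT4 hT12 hatt h3 hn0 hnB
      have ht1 : 1 ≤ Real.exp ((s : ℝ) / 2) := H414.one_le_b s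
      have hdisc := (nw_of_sh hC hsh' h3).disc ht1 (half_pos hδ) (by
        rw [hM, div_le_iff₀ hδ] at h4
        linarith) hn0 hang'
      rw [hng] at hdisc
      obtain ⟨hj, hb⟩ := hdisc
      have h5 := hb l
      have hj0 : 0 < |ℓ j| := abs_pos.2 hj
      have e1 : (q γ).1 i l / (q γ).1 i j - ℓ l / ℓ j =
          -((ℓ l - ℓ j * H696.yy (q γ).1 i j l) / ℓ j) := by
        simp only [H696.yy]
        field_simp
        ring
      rw [e1, abs_neg, abs_div, div_mul_eq_mul_div, div_le_iff₀ hj0, hD]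
      have h6 : 0 < Real.exp ((s : ℝ) / 2) ^ 3 := by positivity
      calc |ℓ l - ℓ j * H696.yy (q γ).1 i j l| * Real.exp ((s : ℝ) / 2) ^ 3 ≤
          (H696.cD C (δ / 2) * (Real.exp ((s : ℝ) / 2) ^ 3)⁻¹ * |ℓ j|) *
            Real.exp ((s : ℝ) / 2) ^ 3 := mul_le_mul_of_nonneg_right h5 h6.le
        _ = H696.cD C (δ / 2) * |ℓ j| := by field_simp
  -- the cover
  have hcov : S ⊆ hf1.toFinset ∪ (Finset.range (J + 1)).biUnion fun s =>
      (Finset.univ : Finset (Fin 3 × Fin 3)).biUnion fun p =>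
        S.filter fun γ => H414.sn (q γ) = s ∧ H414.Piv (q γ) p.1 p.2 ∧
        M ≤ Real.exp (H414.sn (q γ) / 2) ^ 3 := by
    intro γ hγ
    rw [Finset.mem_union]
    by_cases hm : M ≤ Real.exp (H414.sn (q γ) / 2) ^ 3
    · right
      obtain ⟨i, j, hp⟩ := H414.exists_piv (q γ)
      refine Finset.mem_biUnion.2 ⟨H414.sn (q γ), ?_, Finset.mem_biUnion.2 ⟨(i, j),
        Finset.mem_univ _, Finset.mem_filter.2 ⟨hγ, rfl, hp, hm⟩⟩⟩
      rw [Finset.mem_range]
      have h1 := (hS γ hγ).2.2.1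
      rw [nm_eq] at h1
      exact Nat.lt_succ_of_le (H414.sn_le h1)
    · left
      rw [Set.Finite.mem_toFinset]
      change nm (q γ) ≤ C * M ^ 2
      rw [nm_eq]
      refine H414.mx_le fun i j => ((hsh γ hγ).up i j).trans ?_
      refine mul_le_mul_of_nonneg_left ?_ hC.le
      have ht1 := H414.one_le_b (H414.sn (q γ))
      set t := Real.exp ((H414.sn (q γ) : ℝ) / 2)
      have h2 : t ≤ t ^ 3 := by
        calc t = t * 1 := (mul_one t).symm
          _ ≤ t * t ^ 2 := mul_le_mul_of_nonneg_left (one_le_pow₀ ht1) (by linarith)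
          _ = t ^ 3 := by ring
      have h3 : t ≤ M := h2.trans (not_le.1 hm).le
      exact pow_le_pow_left₀ (by linarith) h3 2
  refine (Finset.card_le_card hcov).trans ?_
  refine (Finset.card_union_le _ _).trans ?_
  have h7 : ((Finset.range (J + 1)).biUnion fun s =>
      (Finset.univ : Finset (Fin 3 × Fin 3)).biUnion fun p =>
        S.filter fun γ => H414.sn (q γ) = s ∧ H414.Piv (q γ) p.1 p.2 ∧
        M ≤ Real.exp (H414.sn (q γ) / 2) ^ 3).card ≤ (J + 1) * (9 * hf2.toFinset.card) := by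
    refine Finset.card_biUnion_le.trans ?_
    refine (Finset.sum_le_card_nsmul _ _ (9 * hf2.toFinset.card) fun s _ => ?_).trans (by
      rw [Finset.card_range, smul_eq_mul])
    refine Finset.card_biUnion_le.trans ?_
    refine (Finset.sum_le_card_nsmul _ _ hf2.toFinset.card fun p _ => hcell s p.1 p.2).trans ?_
    rw [smul_eq_mul, Finset.card_univ, Fintype.card_prod, Fintype.card_fin]
  have h8 : hf1.toFinset.card ≤ hf1.toFinset.card * (J + 1) := Nat.le_mul_of_pos_right _ (by omega)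
  calc _ ≤ hf1.toFinset.card * (J + 1) + (J + 1) * (9 * hf2.toFinset.card) := add_le_add h8 h7
    _ = _ := by ring

end count

end Vale.Agent.P092.H596
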