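import Vale.Agent.P092.H596.Cnt
import Vale.Agent.P092.H218.Loc

/-!
P092, TEAM D (helper596), block [D-I1]: the trace bound of `m D * F h`.
-/

set_option linter.all false

open scoped InnerProductSpace ENNReal LinearAlgebra.Projectivization
open Filter Topology ContinuousLinearMap MeasureTheory TopologicalSpace

namespace Vale.Agent.P092.H596

open Vale.Agent.P092.SD
open Vale.Agent.P092.RC (Cm TRN Pic)

/-- **The pointwise count for functions.** -/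
theorem i1_pointwise {Γ : Type} [Group Γ] (q : Γ →* G3 ℝ)
    (hfin : ∀ R : ℝ, {γ | nm (q γ) ≤ R}.Finite) (u h : CP ℝ)
    (hu : NInc (tsupport u) (tsupport h)) :
    ∃ A : Set (PP ℝ), IsOpen A ∧ tsupport u ⊆ A ∧ ∃ T₀ : ℝ, 0 < T₀ ∧ ∀ T ≥ T₀, ∀ R : ℝ,
      ∃ C : ℝ, 0 ≤ C ∧ ∀ (J : ℕ) (S : Finset Γ),
        (∀ γ ∈ S, NW R (q γ) ∧ Att T A (q γ) ∧ nm (q γ) ≤ Real.exp J) →
        ∀ y : PP ℝ, ∑ γ ∈ S, ‖h (tau ℝ (q γ) • y)‖ ^ 2 ≤ C * (J + 1) := by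
  classical
  -- a neighbourhood of the support of `u` with the same property
  obtain ⟨U, hU, huU, hUn⟩ : ∃ U : Set (PP ℝ), IsOpen U ∧ tsupport u ⊆ U ∧
      NInc U (tsupport h) := by
    have h1 : (tsupport (u : PP ℝ → ℂ)) ×ˢ (tsupport (h : PP ℝ → ℂ)) ⊆
        (H820.inc3 (k := ℝ))ᶜ := by
      rintro ⟨x, l⟩ ⟨hx, hl⟩
      exact hu x hx l hl
    obtain ⟨U, V, hU, hV, h2, h3, h4⟩ := generalized_tube_lemma
      (isClosed_tsupport (u : PP ℝ → ℂ)).isCompact (isClosed_tsupport (h : PP ℝ → ℂ)).isCompact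
      H820.inc3_closed.isOpen_compl h1
    exact ⟨U, hU, h2, fun x hx l hl => h4 (Set.mk_mem_prod hx (h3 hl))⟩
  obtain ⟨A, hA, huA, hAU⟩ := normal_exists_closure_subset
    (isClosed_tsupport (u : PP ℝ → ℂ)) hU huU
  have hn : NInc (closure A) (tsupport h) := fun x hx l hl => hUn x (hAU hx) l hl
  obtain ⟨T₀, hT₀, hcount⟩ := line_count q hfin isClosed_closure
    (isClosed_tsupport (h : PP ℝ → ℂ)) hn
  refine ⟨A, hA, huA, T₀, hT₀, fun T hT R => ?_⟩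
  obtain ⟨N, hN⟩ := hcount T hT R
  refine ⟨N * ‖h‖ ^ 2, by positivity, fun J S hS y => ?_⟩
  have hcard := hN J y (S.filter fun γ => tau ℝ (q γ) • y ∈ tsupport h) fun γ hγ => by
    obtain ⟨h1, h2⟩ := Finset.mem_filter.1 hγ
    obtain ⟨a1, ⟨v, φ, hv, hvA, hφ⟩, a3⟩ := hS γ h1
    exact ⟨a1, ⟨v, φ, hv, subset_closure hvA, hφ⟩, a3, h2⟩
  have hsum : ∑ γ ∈ S, ‖h (tau ℝ (q γ) • y)‖ ^ 2 ≤
      ∑ γ ∈ S.filter (fun γ => tau ℝ (q γ) • y ∈ tsupport h), ‖h‖ ^ 2 := by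
    rw [Finset.sum_filter]
    refine Finset.sum_le_sum fun γ _ => ?_
    split_ifs with hc
    · exact pow_le_pow_left₀ (norm_nonneg _) (h.norm_coe_le_norm _) 2
    · rw [image_eq_zero_of_notMem_tsupport hc, norm_zero, zero_pow two_ne_zero]
  refine hsum.trans ?_
  rw [Finset.sum_const, nsmul_eq_mul]
  have h5 : ((S.filter fun γ => tau ℝ (q γ) • y ∈ tsupport h).card : ℝ) ≤ N * (J + 1) := by
    exact_mod_cast hcard
  calc _ ≤ (N * (J + 1) : ℝ) * ‖h‖ ^ 2 := mul_le_mul_of_nonneg_right h5 (by positivity)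
    _ = _ := by ring

section gen

variable {Γ K : Type} [Group Γ] [NormedAddCommGroup K] [InnerProductSpace ℂ K] [CompleteSpace K]
  {lam : Γ →* (K →L[ℂ] K)} {W : Set (K →L[ℂ] K)} {Ω : K} {m : Set Γ → (K →L[ℂ] K)}

theorem lam_norm (hL : ∀ γ, adjoint (lam γ) = lam γ⁻¹) (γ : Γ) (ξ : K) : ‖lam γ ξ‖ = ‖ξ‖ := by
  have h1 : ⟪lam γ ξ, lam γ ξ⟫_ℂ = ⟪ξ, ξ⟫_ℂ := by
    rw [← adjoint_inner_left, hL]
    congr 1
    change (lam γ⁻¹ * lam γ) ξ = ξ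
    rw [← map_mul, inv_mul_cancel, map_one]
    rfl
  rw [inner_self_eq_norm_sq_to_K, inner_self_eq_norm_sq_to_K] at h1
  have h2 : ‖lam γ ξ‖ ^ 2 = ‖ξ‖ ^ 2 := by exact_mod_cast h1
  exact (pow_left_inj₀ (norm_nonneg _) (norm_nonneg _) two_ne_zero).1 h2

theorem cm_mul {S T : K →L[ℂ] K} (hS : Cm W S) (hT : Cm W T) : Cm W (S * T) := fun w hw => by
  rw [mul_assoc, hT w hw, ← mul_assoc, hS w hw, mul_assoc]

theorem ms_empty (hM : Ms lam W Ω m) : m ∅ = 0 := by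
  have h1 : m Set.univ * m ∅ = m ∅ := by rw [← hM.inf, Set.univ_inter]
  have h2 : m Set.univ = 1 - m ∅ := by rw [← Set.compl_empty, hM.compl]
  have h3 : m ∅ * m ∅ = m ∅ := by rw [← hM.inf, Set.empty_inter]
  rw [h2, sub_mul, one_mul, h3, sub_self] at h1
  exact h1.symm

theorem ms_lam_mem (hM : Ms lam W Ω m) {S : Set Γ} {γ : Γ} (hγ : γ ∈ S) :
    m S (lam γ Ω) = lam γ Ω := by
  have h1 : lam γ Ω = m {γ} (lam γ Ω) := by
    have h2 := hM.cov γ {1}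
    have h3 : (fun x => γ * x) '' ({1} : Set Γ) = {γ} := by
      rw [Set.image_singleton, mul_one]
    rw [h3] at h2
    rw [← h2]
    change _ = lam γ (m {1} ((lam γ⁻¹ * lam γ) Ω))
    rw [← map_mul, inv_mul_cancel, map_one]
    change _ = lam γ (m {1} Ω)
    rw [hM.om]
  have h4 : m S * m {γ} = m {γ} := by
    rw [← hM.inf, Set.inter_eq_right.2 (Set.singleton_subset_iff.2 hγ)]
  calc m S (lam γ Ω) = (m S * m {γ}) (lam γ Ω) := by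
        conv_lhs => rw [h1]
        rfl
    _ = lam γ Ω := by rw [h4, ← h1]

theorem ms_lam_notMem (hM : Ms lam W Ω m) {S : Set Γ} {γ : Γ} (hγ : γ ∉ S) :
    m S (lam γ Ω) = 0 := by
  have h1 := ms_lam_mem hM (S := Sᶜ) hγ
  rw [hM.compl] at h1
  change lam γ Ω - m S (lam γ Ω) = lam γ Ω at h1
  exact sub_eq_self.1 h1

/-- `‖F(star h) λ_γ Ω‖` -/
theorem norm_F_lam {q : Γ →* G3 ℝ} (hL : ∀ γ, adjoint (lam γ) = lam γ⁻¹)
    {F : CP ℝ →⋆ₐ[ℂ] (K →L[ℂ] K)}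
    (hcov : ∀ γ f, lam γ * F f * lam γ⁻¹ = F (act (tau ℝ (q γ)) f)) (f : CP ℝ) (γ : Γ) (ξ : K) :
    ‖F f (lam γ ξ)‖ = ‖F (act (tau ℝ (q γ⁻¹)) f) ξ‖ := by
  have h1 := hcov γ⁻¹ f
  rw [inv_inv] at h1
  rw [← h1]
  change _ = ‖lam γ⁻¹ (F f (lam γ ξ))‖
  rw [lam_norm hL]

theorem act_tau_apply (q : Γ →* G3 ℝ) (f : CP ℝ) (γ : Γ) (y : PP ℝ) :
    act (tau ℝ (q γ⁻¹)) f y = f (tau ℝ (q γ) • y) := by
  change f ((tau ℝ (q γ⁻¹))⁻¹ • y) = _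
  rw [← map_inv, ← map_inv, inv_inv]

/-- **The trace bound.** -/
theorem i1_trn {q : Γ →* G3 ℝ} (hL : ∀ γ, adjoint (lam γ) = lam γ⁻¹)
    (htr : ∀ T, Cm W T → TRN lam Ω (adjoint T) = TRN lam Ω T) (hM : Ms lam W Ω m)
    {F : CP ℝ →⋆ₐ[ℂ] (K →L[ℂ] K)} (hcm : ∀ f, Cm W (F f))
    (hcov : ∀ γ f, lam γ * F f * lam γ⁻¹ = F (act (tau ℝ (q γ)) f))
    {D : Set Γ} {h : CP ℝ} {c : ℝ} (hc : 0 ≤ c)
    (hD : ∀ S : Finset Γ, (∀ γ ∈ S, γ ∈ D) →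
      ∀ y : PP ℝ, ∑ γ ∈ S, ‖h (tau ℝ (q γ) • y)‖ ^ 2 ≤ c) :
    TRN lam Ω (m D * F h) ≤ ENNReal.ofReal (c * ‖Ω‖ ^ 2) := by
  classical
  rw [← htr _ (cm_mul (hM.cm D) (hcm h))]
  have e1 : adjoint (m D * F h) = F (star h) * m D := by
    rw [map_star]
    change adjoint ((m D).comp (F h)) = _
    rw [adjoint_comp, hM.adj]
    rfl
  rw [e1, TRN, ENNReal.tsum_eq_iSup_sum]
  refine iSup_le fun S => ?_
  have e2 : ∑ γ ∈ S, ‖(F (star h) * m D) (lam γ Ω)‖ₑ ^ 2 =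
      ENNReal.ofReal (∑ γ ∈ S.filter (· ∈ D), ‖F (act (tau ℝ (q γ⁻¹)) (star h)) Ω‖ ^ 2) := by
    rw [ENNReal.ofReal_sum_of_nonneg fun _ _ => by positivity, Finset.sum_filter]
    refine Finset.sum_congr rfl fun γ _ => ?_
    change ‖F (star h) (m D (lam γ Ω))‖ₑ ^ 2 = _
    split_ifs with hγ
    · rw [ms_lam_mem hM hγ, ← norm_F_lam hL hcov (star h) γ Ω,
        ENNReal.ofReal_pow (norm_nonneg _), ofReal_norm]
    · rw [ms_lam_notMem hM hγ, map_zero, enorm_zero, zero_pow two_ne_zero]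
  rw [e2]
  refine ENNReal.ofReal_le_ofReal ?_
  refine H218.sum_sq_le F _ (fun γ => act (tau ℝ (q γ⁻¹)) (star h)) hc (fun y => ?_) Ω
  refine le_trans (le_of_eq ?_) (hD (S.filter (· ∈ D)) (fun γ hγ => (Finset.mem_filter.1 hγ).2) y)
  refine Finset.sum_congr rfl fun γ _ => ?_
  rw [act_tau_apply, ContinuousMap.star_apply, norm_star]

end gen

end Vale.Agent.P092.H596
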